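import Mathlib
import Vale.Agent.P260.H493.Defs

/-!
# P260 climb, M14: transfer of functionals along `SEs`
-/

namespace Vale.Agent.P260.H724

open Vale.Agent.P260.H493

section

variable {R : Type} [Ring R]

/-- Factoring a map through the range of another one. -/
theorem exists_lift_range {G F N : Type} [AddCommGroup G] [Module R G] [AddCommGroup F]
    [Module R F] [AddCommGroup N] [Module R N] (p : G →ₗ[R] F) (φ : G →ₗ[R] N)
    (h : ∀ x, p x = 0 → φ x = 0) :
    ∃ f : LinearMap.range p →ₗ[R] N, ∀ x, f (p.rangeRestrict x) = φ x := by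
  have hle : LinearMap.ker p ≤ LinearMap.ker φ := fun x hx =>
    LinearMap.mem_ker.2 (h x (LinearMap.mem_ker.1 hx))
  refine ⟨((LinearMap.ker p).liftQ φ hle) ∘ₗ (p.quotKerEquivRange.symm : _ →ₗ[R] _), fun x => ?_⟩
  have h1 : p.quotKerEquivRange.symm (p.rangeRestrict x) = (LinearMap.ker p).mkQ x := by
    rw [LinearEquiv.symm_apply_eq]
    rfl
  rw [LinearMap.comp_apply]
  erw [h1]
  rfl

/-- Functionals on the range are transported along `SEs`. -/
theorem transfer {G' F' G F N : Type} [AddCommGroup G'] [Module R G'] [AddCommGroup F']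
    [Module R F'] [AddCommGroup G] [Module R G] [AddCommGroup F] [Module R F]
    [AddCommGroup N] [Module R N] (d' : G' →ₗ[R] F') (d : G →ₗ[R] F)
    (a : F' →ₗ[R] F) (b : F →ₗ[R] F') (e' : F' →ₗ[R] F')
    (hb : ∀ x ∈ LinearMap.range d, b x ∈ LinearMap.range d')
    (he' : ∀ x, e' x ∈ LinearMap.range d')
    (hab : ∀ x ∈ LinearMap.range d', x - b (a x) = e' x)
    (φ : G' →ₗ[R] N) (hφ : ∀ x, d' x = 0 → φ x = 0) :
    ∃ (z : G →ₗ[R] N) (χ : F' →ₗ[R] N), (∀ x, d x = 0 → z x = 0) ∧
      (∀ w v, d' v = b (d w) → z w = φ v) ∧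
      (∀ v w, d w = a (d' v) → φ v = z w + χ (d' v)) := by
  obtain ⟨f, hf⟩ := exists_lift_range d' φ hφ
  have hf' : ∀ (x : G') (y : LinearMap.range d'), (y : F') = d' x → f y = φ x := by
    intro x y hy
    rw [← hf x]
    congr 1
    exact Subtype.ext hy
  refine ⟨f ∘ₗ LinearMap.codRestrict (LinearMap.range d') (b ∘ₗ d)
      (fun x => hb _ ⟨x, rfl⟩), f ∘ₗ LinearMap.codRestrict (LinearMap.range d') e' he', ?_, ?_, ?_⟩
  · intro x hx
    have : LinearMap.codRestrict (LinearMap.range d') (b ∘ₗ d) (fun x => hb _ ⟨x, rfl⟩) x = 0 := by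
      apply Subtype.ext
      simp [hx]
    rw [LinearMap.comp_apply, this, map_zero]
  · intro w v h
    rw [LinearMap.comp_apply]
    exact hf' v _ h.symm
  · intro v w h
    have h1 := hab (d' v) ⟨v, rfl⟩
    have h2 : d'.rangeRestrict v = LinearMap.codRestrict (LinearMap.range d') (b ∘ₗ d)
        (fun x => hb _ ⟨x, rfl⟩) w + LinearMap.codRestrict (LinearMap.range d') e' he' (d' v) := by
      apply Subtype.ext
      simp only [LinearMap.codRestrict_apply, LinearMap.comp_apply, Submodule.coe_add]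
      rw [h, ← h1]
      simp
    rw [← hf v, h2, map_add]
    rfl

end

end Vale.Agent.P260.H724
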