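import Mathlib
import Vale.Agent.P260.H493.Defs
import Vale.Agent.P260.H724.PackA

/-!
# P260 climb, M14: building the duality data of the fibre
-/

namespace Vale.Agent.P260.H724

open Vale.Agent.P260.H493

section

variable {k : Type} [Field k]

/-- forget the module structure -/
def unT {k : Type} (x : Triv k) : k := x

theorem unT_single_smul {Δ : Type} [Group Δ] (g : Δ) (c : k) (x : Triv k) :
    unT ((MonoidAlgebra.single g c : MonoidAlgebra k Δ) • x) = c * unT x := by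
  change (MonoidAlgebra.lift k k Δ (1 : Δ →* k)) (MonoidAlgebra.single g c) * unT x = c * unT x
  congr 1
  simp [MonoidAlgebra.lift_single]

instance finite_triv {Δ : Type} [Group Δ] : Module.Finite (MonoidAlgebra k Δ) (Triv k) := by
  refine Module.Finite.of_surjective
    (LinearMap.toSpanSingleton (MonoidAlgebra k Δ) (Triv k) (show Triv k from (1 : k))) ?_
  intro x
  refine ⟨MonoidAlgebra.single 1 (unT x), ?_⟩
  rw [LinearMap.toSpanSingleton_apply]
  change unT (MonoidAlgebra.single (1 : Δ) (unT x) • (show Triv k from (1 : k))) = unT x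
  rw [unT_single_smul]
  exact mul_one (unT x)

/-- the abstract form of M14 -/
theorem pack_core (Δ : Type) [Group Δ] (m : ℕ) (F : ℕ → Type)
    [∀ i, AddCommGroup (F i)] [∀ i, Module (MonoidAlgebra k Δ) (F i)]
    (d : ∀ i, F (i + 1) →ₗ[MonoidAlgebra k Δ] F i)
    (π : F (m + 2) →ₗ[MonoidAlgebra k Δ] F (m + 2))
    (ε : F 0 →ₗ[MonoidAlgebra k Δ] Triv k)
    (hs : Function.Surjective ε)
    (he0 : ∀ v, ε v = 0 ↔ ∃ w, d 0 w = v)
    (he : ∀ i, i < m + 1 → ∀ v, d i v = 0 ↔ ∃ w, d (i + 1) w = v)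
    (hdπ : ∀ v, d (m + 1) (π v) = d (m + 1) v)
    (hV : ∀ (N : Type) [AddCommGroup N] [Module (MonoidAlgebra k Δ) N]
      (z : F (m + 2) →ₗ[MonoidAlgebra k Δ] N), z ∘ₗ π = z →
      ∃ y : F (m + 1) →ₗ[MonoidAlgebra k Δ] N, z = y ∘ₗ d (m + 1))
    (h0 : ∀ z : F 0 →ₗ[MonoidAlgebra k Δ] MonoidAlgebra k Δ, z ∘ₗ d 0 = 0 → z = 0)
    (h1 : ∀ i, i < m → ∀ z : F (i + 1) →ₗ[MonoidAlgebra k Δ] MonoidAlgebra k Δ,
      z ∘ₗ d (i + 1) = 0 → ∃ y : F i →ₗ[MonoidAlgebra k Δ] MonoidAlgebra k Δ, z = y ∘ₗ d i)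
    (h2 : ∃ z₀ : F (m + 1) →ₗ[MonoidAlgebra k Δ] MonoidAlgebra k Δ, z₀ ∘ₗ d (m + 1) = 0 ∧
      (¬ ∃ y : F m →ₗ[MonoidAlgebra k Δ] MonoidAlgebra k Δ, z₀ = y ∘ₗ d m) ∧
      ∀ z : F (m + 1) →ₗ[MonoidAlgebra k Δ] MonoidAlgebra k Δ, z ∘ₗ d (m + 1) = 0 →
        ∃ (c : k) (y : F m →ₗ[MonoidAlgebra k Δ] MonoidAlgebra k Δ),
          ∀ v, z v = c • z₀ v + y (d m v))
    (r' : ℕ → ℕ)
    (d' : ∀ i, (Fin (r' (i + 1)) → MonoidAlgebra k Δ) →ₗ[MonoidAlgebra k Δ]
      (Fin (r' i) → MonoidAlgebra k Δ))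
    (ε' : (Fin (r' 0) → MonoidAlgebra k Δ) →ₗ[MonoidAlgebra k Δ] Triv k)
    (hs' : Function.Surjective ε')
    (he0' : ∀ v, ε' v = 0 ↔ ∃ w, d' 0 w = v)
    (he' : ∀ i, i < m → ∀ v, d' i v = 0 ↔ ∃ w, d' (i + 1) w = v)
    (hS0 : SEs (LinearMap.ker ε') (LinearMap.ker ε))
    (hS : ∀ i, i ≤ m → SEs (LinearMap.ker (d' i)) (LinearMap.ker (d i))) :
    Nonempty (PDG k Δ m) := by
  -- `SEs` for the ranges
  have hr0 : LinearMap.ker ε' = LinearMap.range (d' 0) := by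
    ext v
    rw [LinearMap.mem_ker, he0' v, LinearMap.mem_range]
  have hr0F : LinearMap.ker ε = LinearMap.range (d 0) := by
    ext v
    rw [LinearMap.mem_ker, he0 v, LinearMap.mem_range]
  have hri : ∀ i, i < m → LinearMap.ker (d' i) = LinearMap.range (d' (i + 1)) := by
    intro i hi
    ext v
    rw [LinearMap.mem_ker, he' i hi v, LinearMap.mem_range]
  have hriF : ∀ i, i < m + 1 → LinearMap.ker (d i) = LinearMap.range (d (i + 1)) := by
    intro i hi
    ext v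
    rw [LinearMap.mem_ker, he i hi v, LinearMap.mem_range]
  have hSR : ∀ i, i ≤ m → SEs (LinearMap.range (d' i)) (LinearMap.range (d i)) := by
    intro i hi
    rcases i with _ | i
    · rw [← hr0, ← hr0F]
      exact hS0
    · rw [← hri i (by omega), ← hriF i (by omega)]
      exact hS i (by omega)
  -- the projection onto the kernel of `d' m`
  have hρ : ∃ ρ : (Fin (r' (m + 1)) → MonoidAlgebra k Δ) →ₗ[MonoidAlgebra k Δ]
      LinearMap.ker (d' m), ∀ v, d' m v = 0 → (ρ v : Fin (r' (m + 1)) → MonoidAlgebra k Δ) = v := by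
    obtain ⟨a, b, f', f, ha, hb, hf', hf, h3, h4⟩ := hS m le_rfl
    have hzmem : ∀ w, (b ∘ₗ d (m + 1)) w ∈ LinearMap.ker (d' m) := fun w =>
      hb _ (LinearMap.mem_ker.2 ((he m (by omega) _).2 ⟨w, rfl⟩))
    obtain ⟨y, hy⟩ := hV (LinearMap.ker (d' m))
      (LinearMap.codRestrict (LinearMap.ker (d' m)) (b ∘ₗ d (m + 1)) hzmem) (by
        ext1 v
        apply Subtype.ext
        simp only [LinearMap.comp_apply, LinearMap.codRestrict_apply]
        rw [hdπ])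
    refine ⟨y ∘ₗ a + LinearMap.codRestrict (LinearMap.ker (d' m)) f' hf', fun v hv => ?_⟩
    have hv' : v ∈ LinearMap.ker (d' m) := LinearMap.mem_ker.2 hv
    obtain ⟨w, hw⟩ := (he m (by omega) (a v)).1 (LinearMap.mem_ker.1 (ha v hv'))
    have h5 : ((y (a v) : LinearMap.ker (d' m)) : Fin (r' (m + 1)) → MonoidAlgebra k Δ)
        = b (a v) := by
      have h6 := LinearMap.congr_fun hy w
      rw [LinearMap.comp_apply] at h6
      rw [← hw, ← h6]
      rfl
    rw [LinearMap.add_apply, Submodule.coe_add, LinearMap.comp_apply, h5,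
      LinearMap.codRestrict_apply, ← h3 v hv']
    simp
  obtain ⟨ρ, hρ⟩ := hρ
  have hρk : ∀ v, d' m (ρ v : Fin (r' (m + 1)) → MonoidAlgebra k Δ) = 0 := fun v =>
    LinearMap.mem_ker.1 (ρ v).2
  let π' : (Fin (r' (m + 1)) → MonoidAlgebra k Δ) →ₗ[MonoidAlgebra k Δ]
      (Fin (r' (m + 1)) → MonoidAlgebra k Δ) :=
    LinearMap.id - (LinearMap.ker (d' m)).subtype ∘ₗ ρ
  have hπ' : ∀ v, π' v = v - (ρ v : Fin (r' (m + 1)) → MonoidAlgebra k Δ) := fun v => rfl
  -- the top class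
  have htop : ∃ φ₀ : (Fin (r' (m + 1)) → MonoidAlgebra k Δ) →ₗ[MonoidAlgebra k Δ]
      MonoidAlgebra k Δ,
      φ₀ ∘ₗ π' = φ₀ ∧
      (¬ ∃ χ : (Fin (r' m) → MonoidAlgebra k Δ) →ₗ[MonoidAlgebra k Δ] MonoidAlgebra k Δ,
        φ₀ = χ ∘ₗ d' m) ∧
      ∀ φ : (Fin (r' (m + 1)) → MonoidAlgebra k Δ) →ₗ[MonoidAlgebra k Δ] MonoidAlgebra k Δ,
        φ ∘ₗ π' = φ → ∃ (c : k)
          (χ : (Fin (r' m) → MonoidAlgebra k Δ) →ₗ[MonoidAlgebra k Δ] MonoidAlgebra k Δ),
          ∀ v, φ v = c • φ₀ v + χ (d' m v) := by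
    obtain ⟨z₀, hz1, hz2, hz3⟩ := h2
    obtain ⟨a, b, f', f, ha, hb, hf', hf, h3, h4⟩ := hSR m le_rfl
    have hz1' : ∀ x, d m x = 0 → z₀ x = 0 := by
      intro x hx
      obtain ⟨w, rfl⟩ := (he m (by omega) x).1 hx
      exact LinearMap.congr_fun hz1 w
    obtain ⟨φ₀, χ₂, hk1, hk2, hk3⟩ := transfer (d m) (d' m) b a f ha hf h4 z₀ hz1'
    refine ⟨φ₀, ?_, ?_, ?_⟩
    · refine LinearMap.ext fun v => ?_
      rw [LinearMap.comp_apply, hπ', map_sub, hk1 _ (hρk v), sub_zero]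
    · rintro ⟨χ, hχ⟩
      apply hz2
      refine ⟨χ ∘ₗ b + χ₂, LinearMap.ext fun w => ?_⟩
      obtain ⟨v, hv⟩ := hb (d m w) ⟨w, rfl⟩
      rw [hk3 w v hv, hχ, LinearMap.comp_apply, LinearMap.comp_apply, LinearMap.add_apply,
        LinearMap.comp_apply, hv]
    · intro φ hφ
      have hφ' : ∀ x, d' m x = 0 → φ x = 0 := by
        intro x hx
        rw [← hφ, LinearMap.comp_apply, hπ', hρ x hx, sub_self, map_zero]
      obtain ⟨z, χ₁, ht1, ht2, ht3⟩ := transfer (d' m) (d m) a b f' hb hf' h3 φ hφ'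
      obtain ⟨c, y, hy⟩ := hz3 z (LinearMap.ext fun w => ht1 _ ((he m (by omega) _).2 ⟨w, rfl⟩))
      refine ⟨c, y ∘ₗ a + χ₁, fun v => ?_⟩
      obtain ⟨w, hw⟩ := ha (d' m v) ⟨v, rfl⟩
      rw [ht3 v w hw, hy w, hk2 v w hw, LinearMap.add_apply, LinearMap.comp_apply, hw, add_assoc]
  refine ⟨{ r := r', d := d', π := π', ε := ?_, eps_smul := ?_, eps_surj := ?_, ex0 := ?_, ex := ?_,
            pi_pi := ?_, d_pi := ?_, ex_top := ?_, co0 := ?_, co := ?_, co_top := ?_ }⟩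
  · exact
      { toFun := fun v => (ε' v : k)
        map_add' := fun v w => ε'.map_add v w
        map_smul' := fun c v => by
          have h5 : c • v = (MonoidAlgebra.single (1 : Δ) c : MonoidAlgebra k Δ) • v := by
            funext i
            ext g
            rw [Pi.smul_apply, Pi.smul_apply, smul_eq_mul, MonoidAlgebra.coeff_single_one_mul,
              MonoidAlgebra.coeff_smul_apply, smul_eq_mul]
          rw [h5, ε'.map_smul]
          exact unT_single_smul (1 : Δ) c (ε' v) }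
  · intro g v
    have h5 := congrArg unT (ε'.map_smul (MonoidAlgebra.single g (1 : k)) v)
    rw [unT_single_smul, one_mul] at h5
    exact h5
  · exact hs'
  · exact he0'
  · exact he'
  · intro v
    rw [hπ' (π' v)]
    have h5 : ρ (π' v) = 0 := by
      apply Subtype.ext
      rw [hπ', map_sub, Submodule.coe_sub, hρ _ (hρk v), sub_self]
      rfl
    rw [h5]
    simp
  · intro v
    rw [hπ', map_sub, hρk, sub_zero]
  · intro v hv
    rw [hπ', hρ v hv, sub_self]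
  · intro φ hφ
    have hφ' : ∀ x, ε' x = 0 → φ x = 0 := by
      intro x hx
      obtain ⟨w, rfl⟩ := (he0' x).1 hx
      exact LinearMap.congr_fun hφ w
    obtain ⟨f, hf⟩ := exists_lift_range ε' φ hφ'
    have hmem : ∀ v, ε v ∈ LinearMap.range ε' := fun v => by
      obtain ⟨w, hw⟩ := hs' (ε v)
      exact ⟨w, hw⟩
    have hz := h0 (f ∘ₗ LinearMap.codRestrict (LinearMap.range ε') ε hmem) (by
      refine LinearMap.ext fun w => ?_
      have h5 : LinearMap.codRestrict (LinearMap.range ε') ε hmem (d 0 w) = 0 := by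
        apply Subtype.ext
        exact (he0 _).2 ⟨w, rfl⟩
      rw [LinearMap.comp_apply, LinearMap.comp_apply, h5, map_zero, LinearMap.zero_apply])
    refine LinearMap.ext fun v => ?_
    obtain ⟨w, hw⟩ := hs (ε' v)
    rw [← hf v, LinearMap.zero_apply]
    have h5 := LinearMap.congr_fun hz w
    rw [LinearMap.comp_apply, LinearMap.zero_apply] at h5
    rw [← h5]
    congr 1
    exact Subtype.ext hw.symm
  · intro i hi φ hφ
    obtain ⟨a, b, f', f, ha, hb, hf', hf, h3, h4⟩ := hSR i hi.le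
    have hφ' : ∀ x, d' i x = 0 → φ x = 0 := by
      intro x hx
      obtain ⟨w, rfl⟩ := (he' i hi x).1 hx
      exact LinearMap.congr_fun hφ w
    obtain ⟨z, χ₁, ht1, ht2, ht3⟩ := transfer (d' i) (d i) a b f' hb hf' h3 φ hφ'
    obtain ⟨y, hy⟩ := h1 i hi z (LinearMap.ext fun w => ht1 _ ((he i (by omega) _).2 ⟨w, rfl⟩))
    refine ⟨y ∘ₗ a + χ₁, LinearMap.ext fun v => ?_⟩
    obtain ⟨w, hw⟩ := ha (d' i v) ⟨v, rfl⟩
    rw [ht3 v w hw, hy, LinearMap.comp_apply, LinearMap.comp_apply, LinearMap.add_apply,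
      LinearMap.comp_apply, hw]
  · exact htop

end

end Vale.Agent.P260.H724
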