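import Mathlib
import Vale.Agent.P260.H493.Spec
import Vale.Agent.P260.H724.PackB

/-!
# P260 climb, M14: the fibre is a Poincare duality group
-/

namespace Vale.Agent.P260.H724

open Vale.Agent.P260.H493

section

variable {k Γ : Type} [Field k] [Group Γ]

theorem resSmul_apply (Δ : Subgroup Γ) {ι : Type} (b : MonoidAlgebra k Δ)
    (v : ι → MonoidAlgebra k Γ) :
    b • v = MonoidAlgebra.mapDomainRingHom k Δ.subtype b • v := rfl

theorem resSmul_single (Δ : Subgroup Γ) {ι : Type} (g : Δ) (c : k)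
    (v : ι → MonoidAlgebra k Γ) :
    (MonoidAlgebra.single g c : MonoidAlgebra k Δ) • v
      = c • ((MonoidAlgebra.single (g : Γ) (1 : k) : MonoidAlgebra k Γ) • v) := by
  rw [resSmul_apply, MonoidAlgebra.mapDomainRingHom_apply, MonoidAlgebra.mapDomain_single,
    ← smul_assoc, MonoidAlgebra.smul_single, smul_eq_mul, mul_one]
  rfl

/-- an augmentation, as a map of modules over the group algebra of a subgroup -/
noncomputable def epsR (Δ : Subgroup Γ) {ι : Type} (ε : (ι → MonoidAlgebra k Γ) →ₗ[k] k)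
    (h : ∀ (g : Γ) v, ε (MonoidAlgebra.single g (1 : k) • v) = ε v) :
    (ι → MonoidAlgebra k Γ) →ₗ[MonoidAlgebra k Δ] Triv k where
  toFun v := (ε v : k)
  map_add' v w := ε.map_add v w
  map_smul' b v := by
    change (show Triv k from ε (b • v)) = b • (show Triv k from ε v)
    induction b using MonoidAlgebra.induction_linear with
    | zero =>
      rw [zero_smul, zero_smul, map_zero]
      rfl
    | add b b' hb hb' =>
      rw [add_smul, add_smul, map_add, ← hb, ← hb']
      rfl
    | single g c =>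
      have h1 : unT ((MonoidAlgebra.single g c : MonoidAlgebra k Δ) • (show Triv k from ε v))
          = c * ε v := unT_single_smul g c (show Triv k from ε v)
      rw [resSmul_single, map_smul, h]
      exact h1.symm

end

theorem stmtPack : StmtPack := by
  intro hSE hProj hSlab hHA k Γ _ _ ψ m P hψ hup hdown
  have : ∀ i, Module.Projective (MonoidAlgebra k ψ.ker) (Fin (P.r i) → MonoidAlgebra k Γ) :=
    fun i => hProj k Γ ψ (P.r i) hψ
  obtain ⟨hX0, hX⟩ := hSlab k Γ ψ m P hψ hup hdown
  obtain ⟨hV, h0, h1, h2⟩ := hHA k Γ ψ m P hψ hup hdown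
  obtain ⟨r', d', ε', hs', he0', he', hS0, hS⟩ := hSE (MonoidAlgebra k ψ.ker) (Triv k)
    (fun i => Fin (P.r i) → MonoidAlgebra k Γ) (fun i => resS ψ.ker (P.d i))
    (epsR ψ.ker P.ε P.eps_smul) m P.eps_surj P.ex0 (fun i hi => P.ex i (by omega)) hX0 hX
  exact pack_core ψ.ker m (fun i => Fin (P.r i) → MonoidAlgebra k Γ)
    (fun i => resS ψ.ker (P.d i)) (resS ψ.ker P.π) (epsR ψ.ker P.ε P.eps_smul) P.eps_surj P.ex0
    P.ex P.d_pi hV h0 h1 h2 r' d' ε' hs' he0' he' hS0 hS

end Vale.Agent.P260.H724
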