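import Mathlib
import Vale.Agent.P260.H493.Defs
import Vale.Agent.P260.H119.Lift

/-!
# P260 climb, V8: the group algebra over the group algebra of a subgroup of finite index
-/

namespace Vale.Agent.P260.H724

open Vale.Agent.P260.H493 Vale.Agent.P260.H119

section cosets

variable {Γ : Type} [Group Γ] (Δ : Subgroup Γ)

/-- right cosets -/
abbrev QR : Type := Quotient (QuotientGroup.rightRel Δ)

/-- a representative of a right coset -/
noncomputable def rep (q : QR Δ) : Γ := Quotient.out q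

theorem rep_mem (g : Γ) : g * (rep Δ (Quotient.mk _ g))⁻¹ ∈ Δ := by
  have h : (Quotient.mk (QuotientGroup.rightRel Δ) (rep Δ (Quotient.mk _ g))) =
      Quotient.mk _ g := Quotient.out_eq _
  exact QuotientGroup.rightRel_apply.1 (Quotient.exact h)

theorem rep_uniq (q : QR Δ) (g : Γ) (h : g * (rep Δ q)⁻¹ ∈ Δ) : Quotient.mk _ g = q := by
  have h1 : Quotient.mk (QuotientGroup.rightRel Δ) (rep Δ q) = q := Quotient.out_eq _
  rw [← h1]
  exact (Quotient.sound (QuotientGroup.rightRel_apply.2 h)).symm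

theorem finite_QR [Δ.FiniteIndex] : Finite (QR Δ) :=
  Finite.of_equiv _ (QuotientGroup.quotientRightRelEquivQuotientLeftRel Δ).symm

end cosets

section basis

variable {k Γ : Type} [Field k] [Group Γ] (Δ : Subgroup Γ)

theorem smul_mul_sub (b : MonoidAlgebra k Δ) (x y : MonoidAlgebra k Γ) :
    (b • x) * y = b • (x * y) :=
  mul_assoc (MonoidAlgebra.mapDomainRingHom k Δ.subtype b) x y

/-- right multiplication by a group element, additive -/
noncomputable def rmulAdd (g : Γ) : MonoidAlgebra k Γ →+ MonoidAlgebra k Γ where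
  toFun x := x * MonoidAlgebra.single g 1
  map_zero' := zero_mul _
  map_add' x y := add_mul x y _

/-- right multiplication by a group element -/
noncomputable def rmulR (g : Γ) : MonoidAlgebra k Γ →ₗ[MonoidAlgebra k Δ] MonoidAlgebra k Γ :=
  { (rmulAdd (k := k) g) with
    map_smul' := fun b x => smul_mul_sub Δ b x _ }

/-- coordinates -/
noncomputable def crd : MonoidAlgebra k Γ →ₗ[MonoidAlgebra k Δ] (QR Δ → MonoidAlgebra k Δ) :=
  LinearMap.pi fun q => prA Δ ∘ₗ rmulR Δ (rep Δ q)⁻¹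

theorem rmulR_apply (g : Γ) (x : MonoidAlgebra k Γ) :
    rmulR Δ g x = x * MonoidAlgebra.single g (1 : k) := rfl

theorem crd_apply (x : MonoidAlgebra k Γ) (q : QR Δ) :
    crd Δ x q = prA Δ (rmulR Δ (rep Δ q)⁻¹ x) := rfl

theorem crd_coeff (x : MonoidAlgebra k Γ) (q : QR Δ) (δ : Δ) :
    (crd Δ x q).coeff δ = x.coeff ((δ : Γ) * rep Δ q) := by
  rw [crd_apply, rmulR_apply, prA_coeff, MonoidAlgebra.coeff_mul_single_apply, mul_one, inv_inv]

theorem crd_inj : Function.Injective (crd (k := k) Δ) := by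
  rw [← LinearMap.ker_eq_bot, LinearMap.ker_eq_bot']
  intro x hx
  refine MonoidAlgebra.ext (Finsupp.ext fun g => ?_)
  have h1 := crd_coeff Δ x (Quotient.mk _ g) ⟨_, rep_mem Δ g⟩
  rw [hx] at h1
  simp only [inv_mul_cancel_right] at h1
  rw [← h1]
  rfl

theorem crd_single [DecidableEq (QR Δ)] (q : QR Δ) :
    crd Δ (MonoidAlgebra.single (rep Δ q) (1 : k)) = Pi.single q 1 := by
  funext q'
  refine MonoidAlgebra.ext (Finsupp.ext fun δ => ?_)
  rw [crd_coeff, MonoidAlgebra.coeff_single]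
  by_cases hq : q' = q
  · subst hq
    rw [Pi.single_eq_same, MonoidAlgebra.one_def, MonoidAlgebra.coeff_single]
    by_cases hδ : δ = 1
    · subst hδ
      simp
    · rw [Finsupp.single_eq_of_ne, Finsupp.single_eq_of_ne hδ]
      intro h
      apply hδ
      have h2 : (δ : Γ) = 1 := mul_eq_right.1 h
      exact Subtype.ext h2
  · rw [Pi.single_eq_of_ne hq, Finsupp.single_eq_of_ne]
    · rfl
    · intro h
      apply hq
      have h1 : (Quotient.mk (QuotientGroup.rightRel Δ) (rep Δ q)) = q := Quotient.out_eq _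
      have h2 : Quotient.mk (QuotientGroup.rightRel Δ) ((δ : Γ) * rep Δ q') = q' := by
        apply rep_uniq
        rw [mul_inv_cancel_right]
        exact δ.2
      rw [← h2, h, h1]

theorem crd_surj [Finite (QR Δ)] : Function.Surjective (crd (k := k) Δ) := by
  classical
  have := Fintype.ofFinite (QR Δ)
  intro c
  refine ⟨∑ q, c q • MonoidAlgebra.single (rep Δ q) (1 : k), ?_⟩
  rw [map_sum]
  simp only [map_smul, crd_single]
  funext q
  rw [Finset.sum_apply, Finset.sum_eq_single q]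
  · simp
  · intro q' _ h
    simp [Pi.single_eq_of_ne (Ne.symm h)]
  · intro h
    exact absurd (Finset.mem_univ q) h

/-- the group algebra is free over the group algebra of a subgroup of finite index -/
noncomputable def crdE [Finite (QR Δ)] :
    MonoidAlgebra k Γ ≃ₗ[MonoidAlgebra k Δ] (QR Δ → MonoidAlgebra k Δ) :=
  LinearEquiv.ofBijective (crd Δ) ⟨crd_inj Δ, crd_surj Δ⟩

theorem exists_free_equiv [Δ.FiniteIndex] (n : ℕ) : ∃ n' : ℕ,
    Nonempty ((Fin n → MonoidAlgebra k Γ) ≃ₗ[MonoidAlgebra k Δ] (Fin n' → MonoidAlgebra k Δ)) := by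
  have := finite_QR Δ
  have e1 : (Fin n → MonoidAlgebra k Γ) ≃ₗ[MonoidAlgebra k Δ]
      (Fin n → QR Δ → MonoidAlgebra k Δ) := LinearEquiv.piCongrRight fun _ => crdE Δ
  have e2 : (Fin n → QR Δ → MonoidAlgebra k Δ) ≃ₗ[MonoidAlgebra k Δ]
      (Fin n × QR Δ → MonoidAlgebra k Δ) := (LinearEquiv.curry _ _ _ _).symm
  obtain ⟨n', ⟨f⟩⟩ := Finite.exists_equiv_fin (Fin n × QR Δ)
  exact ⟨n', ⟨(e1.trans e2).trans (LinearEquiv.funCongrLeft _ _ f.symm)⟩⟩

end basis

section lift

variable {k Γ : Type} [Field k] [Group Γ] {Δ : Subgroup Γ} {ι : Type}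

theorem fz_finite_fi [Δ.FiniteIndex]
    (z : (ι → MonoidAlgebra k Γ) →ₗ[MonoidAlgebra k Δ] MonoidAlgebra k Δ)
    (v : ι → MonoidAlgebra k Γ) :
    (Function.support (fz z v)).Finite := by
  classical
  have := Fintype.ofFinite (Γ ⧸ Δ)
  let w : Γ ⧸ Δ → MonoidAlgebra k Δ := fun q =>
    z (MonoidAlgebra.single (q.out)⁻¹ (1 : k) • v)
  let B : Finset Γ := Finset.univ.biUnion fun q : Γ ⧸ Δ =>
    (w q).coeff.support.image fun δ : Δ => q.out * (δ : Γ)
  refine (Finset.finite_toSet B).subset fun g hg => ?_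
  have hg : (z (MonoidAlgebra.single g⁻¹ (1 : k) • v)).coeff 1 ≠ 0 := hg
  let q : Γ ⧸ Δ := (g : Γ ⧸ Δ)
  have h2 : (q.out)⁻¹ * g ∈ Δ := by
    rw [← QuotientGroup.eq]
    exact Quotient.out_eq q
  let δ : Δ := ⟨(q.out)⁻¹ * g, h2⟩
  have h3 : g = q.out * (δ : Γ) := by
    show g = q.out * ((q.out)⁻¹ * g)
    rw [mul_inv_cancel_left]
  rw [Finset.mem_coe, Finset.mem_biUnion]
  refine ⟨q, Finset.mem_univ _, Finset.mem_image.2 ⟨δ, ?_, h3.symm⟩⟩
  rw [Finsupp.mem_support_iff]
  have h4 : MonoidAlgebra.single g⁻¹ (1 : k) • v =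
      MonoidAlgebra.single ((δ⁻¹ : Δ) : Γ) (1 : k) •
        (MonoidAlgebra.single (q.out)⁻¹ (1 : k) • v) := by
    rw [smul_smul, MonoidAlgebra.single_mul_single, one_mul]
    congr 2
    rw [InvMemClass.coe_inv, h3, mul_inv_rev]
  rw [h4, z_single, inv_inv, mul_one] at hg
  exact hg

theorem exists_lift_fi [Δ.FiniteIndex]
    (z : (ι → MonoidAlgebra k Γ) →ₗ[MonoidAlgebra k Δ] MonoidAlgebra k Δ) :
    ∃ φ : (ι → MonoidAlgebra k Γ) →ₗ[MonoidAlgebra k Γ] MonoidAlgebra k Γ,
      prF Δ φ = z := by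
  let f : (ι → MonoidAlgebra k Γ) → MonoidAlgebra k Γ := fun v =>
    MonoidAlgebra.ofCoeff (Finsupp.ofSupportFinite (fz z v) (fz_finite_fi z v))
  have hf : ∀ v g, (f v).coeff g = (z (MonoidAlgebra.single g⁻¹ (1 : k) • v)).coeff 1 :=
    fun v g => rfl
  have hadd : ∀ v w, f (v + w) = f v + f w := by
    intro v w
    refine MonoidAlgebra.ext (Finsupp.ext fun g => ?_)
    rw [MonoidAlgebra.coeff_add, Finsupp.add_apply, hf, hf, hf, smul_add, map_add,
      MonoidAlgebra.coeff_add, Finsupp.add_apply]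
  let φ : (ι → MonoidAlgebra k Γ) →ₗ[MonoidAlgebra k Γ] MonoidAlgebra k Γ :=
    { toFun := f
      map_add' := hadd
      map_smul' := by
        intro a v
        rw [RingHom.id_apply, smul_eq_mul]
        induction a using MonoidAlgebra.induction_linear with
        | zero =>
          rw [zero_smul, zero_mul]
          refine MonoidAlgebra.ext (Finsupp.ext fun g => ?_)
          rw [hf, smul_zero, map_zero]
          rfl
        | add b c hb hc => rw [add_smul, hadd, hb, hc, add_mul]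
        | single x r =>
          refine MonoidAlgebra.ext (Finsupp.ext fun g => ?_)
          rw [MonoidAlgebra.coeff_single_mul_apply, hf, hf, smul_smul,
            MonoidAlgebra.single_mul_single, one_mul]
          have h1 : MonoidAlgebra.single (g⁻¹ * x) r • v =
              (MonoidAlgebra.single (1 : Δ) r : MonoidAlgebra k Δ) •
                (MonoidAlgebra.single (x⁻¹ * g)⁻¹ (1 : k) • v) := by
            rw [sub_smul_vec, smul_smul, MonoidAlgebra.single_mul_single, mul_one]
            congr 2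
            rw [OneMemClass.coe_one, one_mul, mul_inv_rev, inv_inv]
          rw [h1, map_smul, smul_eq_mul, MonoidAlgebra.coeff_single_mul_apply, inv_one, one_mul] }
  refine ⟨φ, LinearMap.ext fun v => MonoidAlgebra.ext (Finsupp.ext fun δ => ?_)⟩
  rw [prF_apply, prA_coeff]
  show (f v).coeff (δ : Γ) = _
  rw [hf]
  have h1 := z_single z δ⁻¹ v 1
  rw [InvMemClass.coe_inv, inv_inv, mul_one] at h1
  exact h1

end lift

end Vale.Agent.P260.H724
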