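import Mathlib
import Vale.Agent.P260.H493.Defs
import Vale.Agent.P260.H724.PackB
import Vale.Agent.P260.H724.Pack
import Vale.Agent.P260.H724.FreeFI

/-!
# P260 climb, V8: duality data restrict to subgroups of finite index
-/

namespace Vale.Agent.P260.H724

open Vale.Agent.P260.H493 Vale.Agent.P260.H119

section

variable {k : Type} [Field k]

/-- duality data from a complex of modules isomorphic to free ones -/
theorem pack_iso (Δ : Type) [Group Δ] (m : ℕ) (F : ℕ → Type)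
    [∀ i, AddCommGroup (F i)] [∀ i, Module (MonoidAlgebra k Δ) (F i)]
    (d : ∀ i, F (i + 1) →ₗ[MonoidAlgebra k Δ] F i)
    (π : F (m + 1) →ₗ[MonoidAlgebra k Δ] F (m + 1))
    (ε : F 0 →ₗ[MonoidAlgebra k Δ] Triv k)
    (hs : Function.Surjective ε)
    (he0 : ∀ v, ε v = 0 ↔ ∃ w, d 0 w = v)
    (he : ∀ i, i < m → ∀ v, d i v = 0 ↔ ∃ w, d (i + 1) w = v)
    (hππ : ∀ v, π (π v) = π v)
    (hdπ : ∀ v, d m (π v) = d m v)
    (htop : ∀ v, d m v = 0 → π v = 0)
    (h0 : ∀ z : F 0 →ₗ[MonoidAlgebra k Δ] MonoidAlgebra k Δ, z ∘ₗ d 0 = 0 → z = 0)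
    (h1 : ∀ i, i < m → ∀ z : F (i + 1) →ₗ[MonoidAlgebra k Δ] MonoidAlgebra k Δ,
      z ∘ₗ d (i + 1) = 0 → ∃ y : F i →ₗ[MonoidAlgebra k Δ] MonoidAlgebra k Δ, z = y ∘ₗ d i)
    (h2 : ∃ z₀ : F (m + 1) →ₗ[MonoidAlgebra k Δ] MonoidAlgebra k Δ, z₀ ∘ₗ π = z₀ ∧
      (¬ ∃ y : F m →ₗ[MonoidAlgebra k Δ] MonoidAlgebra k Δ, z₀ = y ∘ₗ d m) ∧
      ∀ z : F (m + 1) →ₗ[MonoidAlgebra k Δ] MonoidAlgebra k Δ, z ∘ₗ π = z →
        ∃ (c : k) (y : F m →ₗ[MonoidAlgebra k Δ] MonoidAlgebra k Δ),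
          ∀ v, z v = c • z₀ v + y (d m v))
    (r' : ℕ → ℕ) (E : ∀ i, F i ≃ₗ[MonoidAlgebra k Δ] (Fin (r' i) → MonoidAlgebra k Δ)) :
    Nonempty (PDG k Δ m) := by
  let d' : ∀ i, (Fin (r' (i + 1)) → MonoidAlgebra k Δ) →ₗ[MonoidAlgebra k Δ]
      (Fin (r' i) → MonoidAlgebra k Δ) :=
    fun i => (E i).toLinearMap ∘ₗ d i ∘ₗ (E (i + 1)).symm.toLinearMap
  let π' : (Fin (r' (m + 1)) → MonoidAlgebra k Δ) →ₗ[MonoidAlgebra k Δ]
      (Fin (r' (m + 1)) → MonoidAlgebra k Δ) :=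
    (E (m + 1)).toLinearMap ∘ₗ π ∘ₗ (E (m + 1)).symm.toLinearMap
  let ε' : (Fin (r' 0) → MonoidAlgebra k Δ) →ₗ[MonoidAlgebra k Δ] Triv k :=
    ε ∘ₗ (E 0).symm.toLinearMap
  have hd' : ∀ i v, d' i v = E i (d i ((E (i + 1)).symm v)) := fun i v => rfl
  have hd'E : ∀ i v, d' i (E (i + 1) v) = E i (d i v) := fun i v => by
    rw [hd', LinearEquiv.symm_apply_apply]
  have hπ' : ∀ v, π' v = E (m + 1) (π ((E (m + 1)).symm v)) := fun v => rfl
  have hπ'E : ∀ v, π' (E (m + 1) v) = E (m + 1) (π v) := fun v => by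
    rw [hπ', LinearEquiv.symm_apply_apply]
  have hε' : ∀ v, ε' v = ε ((E 0).symm v) := fun v => rfl
  refine ⟨{ r := r', d := d', π := π', ε := ?_, eps_smul := ?_, eps_surj := ?_, ex0 := ?_, ex := ?_,
            pi_pi := ?_, d_pi := ?_, ex_top := ?_, co0 := ?_, co := ?_, co_top := ?_ }⟩
  · exact
      { toFun := fun v => (ε' v : k)
        map_add' := fun v w => ε'.map_add v w
        map_smul' := fun c v => by
          have h5 : c • v = (MonoidAlgebra.single (1 : Δ) c : MonoidAlgebra k Δ) • v := by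
            funext i
            ext g
            rw [Pi.smul_apply, Pi.smul_apply, smul_eq_mul, MonoidAlgebra.coeff_single_one_mul,
              MonoidAlgebra.coeff_smul_apply, smul_eq_mul]
          rw [h5, ε'.map_smul]
          exact unT_single_smul (1 : Δ) c (ε' v) }
  · intro g v
    have h5 := congrArg unT (ε'.map_smul (MonoidAlgebra.single g (1 : k)) v)
    rw [unT_single_smul, one_mul] at h5
    exact h5
  · exact hs.comp (E 0).symm.surjective
  · intro v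
    refine (he0 ((E 0).symm v)).trans ⟨?_, ?_⟩
    · rintro ⟨w, hw⟩
      exact ⟨E 1 w, by rw [hd'E, hw, LinearEquiv.apply_symm_apply]⟩
    · rintro ⟨w, hw⟩
      exact ⟨(E 1).symm w, by rw [← hw, hd', LinearEquiv.symm_apply_apply]⟩
  · intro i hi v
    rw [hd', LinearEquiv.map_eq_zero_iff]
    refine (he i hi ((E (i + 1)).symm v)).trans ⟨?_, ?_⟩
    · rintro ⟨w, hw⟩
      exact ⟨E (i + 2) w, by rw [hd'E, hw, LinearEquiv.apply_symm_apply]⟩
    · rintro ⟨w, hw⟩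
      exact ⟨(E (i + 2)).symm w, by rw [← hw, hd', LinearEquiv.symm_apply_apply]⟩
  · intro v
    rw [hπ' v, hπ'E, hππ]
  · intro v
    rw [hπ' v, hd'E, hdπ, hd']
  · intro v hv
    rw [hd', LinearEquiv.map_eq_zero_iff] at hv
    rw [hπ', htop _ hv, map_zero]
  · intro φ hφ
    have hz := h0 (φ ∘ₗ (E 0).toLinearMap) (by
      refine LinearMap.ext fun w => ?_
      have h5 := LinearMap.congr_fun hφ (E 1 w)
      rw [LinearMap.comp_apply, hd'E, LinearMap.zero_apply] at h5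
      exact h5)
    refine LinearMap.ext fun v => ?_
    have h5 := LinearMap.congr_fun hz ((E 0).symm v)
    rw [LinearMap.comp_apply, LinearEquiv.coe_coe, LinearEquiv.apply_symm_apply,
      LinearMap.zero_apply] at h5
    exact h5
  · intro i hi φ hφ
    obtain ⟨y, hy⟩ := h1 i hi (φ ∘ₗ (E (i + 1)).toLinearMap) (by
      refine LinearMap.ext fun w => ?_
      have h5 := LinearMap.congr_fun hφ (E (i + 2) w)
      rw [LinearMap.comp_apply, hd'E, LinearMap.zero_apply] at h5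
      exact h5)
    refine ⟨y ∘ₗ (E i).symm.toLinearMap, LinearMap.ext fun v => ?_⟩
    have h5 := LinearMap.congr_fun hy ((E (i + 1)).symm v)
    rw [LinearMap.comp_apply, LinearEquiv.coe_coe, LinearEquiv.apply_symm_apply] at h5
    rw [h5]
    show y (d i ((E (i + 1)).symm v)) = y ((E i).symm (E i (d i ((E (i + 1)).symm v))))
    rw [LinearEquiv.symm_apply_apply]
  · obtain ⟨z₀, hz1, hz2, hz3⟩ := h2
    refine ⟨z₀ ∘ₗ (E (m + 1)).symm.toLinearMap, ?_, ?_, ?_⟩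
    · refine LinearMap.ext fun v => ?_
      have h5 := LinearMap.congr_fun hz1 ((E (m + 1)).symm v)
      show z₀ ((E (m + 1)).symm (E (m + 1) (π ((E (m + 1)).symm v)))) =
        z₀ ((E (m + 1)).symm v)
      rw [LinearEquiv.symm_apply_apply]
      exact h5
    · rintro ⟨χ, hχ⟩
      refine hz2 ⟨χ ∘ₗ (E m).toLinearMap, LinearMap.ext fun w => ?_⟩
      have h5 : z₀ ((E (m + 1)).symm (E (m + 1) w)) = χ (d' m (E (m + 1) w)) :=
        LinearMap.congr_fun hχ (E (m + 1) w)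
      rw [LinearEquiv.symm_apply_apply, hd'E] at h5
      exact h5
    · intro φ hφ
      obtain ⟨c, y, hy⟩ := hz3 (φ ∘ₗ (E (m + 1)).toLinearMap) (by
        refine LinearMap.ext fun w => ?_
        have h5 := LinearMap.congr_fun hφ (E (m + 1) w)
        rw [LinearMap.comp_apply, hπ'E] at h5
        exact h5)
      refine ⟨c, y ∘ₗ (E m).symm.toLinearMap, fun v => ?_⟩
      have h5 := hy ((E (m + 1)).symm v)
      rw [LinearMap.comp_apply, LinearEquiv.coe_coe, LinearEquiv.apply_symm_apply] at h5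
      rw [h5]
      show c • z₀ ((E (m + 1)).symm v) + y (d m ((E (m + 1)).symm v)) =
        c • z₀ ((E (m + 1)).symm v) + y ((E m).symm (E m (d m ((E (m + 1)).symm v))))
      rw [LinearEquiv.symm_apply_apply]

theorem prF_zero {Γ : Type} [Group Γ] (H : Subgroup Γ) (ι : Type) :
    prF (k := k) (ι := ι) H 0 = 0 := by
  refine LinearMap.ext fun v => ?_
  rw [prF_apply, LinearMap.zero_apply, LinearMap.zero_apply, map_zero]

end

/-- V8 -/
def StmtFI : Prop := ∀ (k Γ : Type) [Field k] [Group Γ] (H : Subgroup Γ) [H.FiniteIndex] (m : ℕ),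
  PDG k Γ m → Nonempty (PDG k H m)

theorem stmtFI : StmtFI := by
  intro k Γ _ _ H _ m P
  choose r' E using fun i => exists_free_equiv (k := k) H (P.r i)
  refine pack_iso H m (fun i => Fin (P.r i) → MonoidAlgebra k Γ) (fun i => resS H (P.d i))
    (resS H P.π) (epsR H P.ε P.eps_smul) P.eps_surj P.ex0 P.ex P.pi_pi P.d_pi P.ex_top
    ?_ ?_ ?_ r' (fun i => (E i).some)
  · intro z hz
    obtain ⟨φ, rfl⟩ := exists_lift_fi z
    have h : φ ∘ₗ P.d 0 = 0 := by
      apply prF_inj (Δ := H)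
      rw [prF_comp, hz, prF_zero]
    rw [P.co0 φ h, prF_zero]
  · intro i hi z hz
    obtain ⟨φ, rfl⟩ := exists_lift_fi z
    have h : φ ∘ₗ P.d (i + 1) = 0 := by
      apply prF_inj (Δ := H)
      rw [prF_comp, hz, prF_zero]
    obtain ⟨χ, hχ⟩ := P.co i hi φ h
    exact ⟨prF H χ, by rw [hχ]; rfl⟩
  · obtain ⟨φ₀, h1, h2, h3⟩ := P.co_top
    refine ⟨prF H φ₀, ?_, ?_, ?_⟩
    · rw [← prF_comp, h1]
    · rintro ⟨y, hy⟩
      obtain ⟨χ, rfl⟩ := exists_lift_fi y
      refine h2 ⟨χ, prF_inj (Δ := H) ?_⟩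
      rw [hy, prF_comp]
    · intro z hz
      obtain ⟨φ, rfl⟩ := exists_lift_fi z
      have h : φ ∘ₗ P.π = φ := by
        apply prF_inj (Δ := H)
        rw [prF_comp, hz]
      obtain ⟨c, χ, hc⟩ := h3 φ h
      refine ⟨c, prF H χ, fun v => ?_⟩
      refine MonoidAlgebra.ext (Finsupp.ext fun δ => ?_)
      have h5 := congrArg (fun x => x.coeff (δ : Γ)) (hc v)
      exact h5

end Vale.Agent.P260.H724
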